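import Vale.Agent.Lib.P322D.Law

/-!
# P322: the Courtade-Kumar conjecture, for random variables on an arbitrary probability space

`X` is uniform on `{-1,1}^n`, `Y = (X_1 Z_1, ..., X_n Z_n)` is the output of `n` independent
binary symmetric channels with crossover probability `ε`.  The mutual information is the
Kullback-Leibler divergence of Mathlib (natural logarithms, so one bit is `log 2`).
-/

namespace Vale.Agent.Results.P322.BinaryChannel

open MeasureTheory ProbabilityTheory
open scoped ENNReal

/-- The mutual information `I(U;V)`, in nats: the Kullback-Leibler divergence between the joint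
law of `U` and `V` and the product of their laws. -/
noncomputable def mutualInformation {Ω α β : Type*} [MeasurableSpace Ω] [MeasurableSpace α]
    [MeasurableSpace β] (P : Measure Ω) (U : Ω → α) (V : Ω → β) : ℝ≥0∞ :=
  InformationTheory.klDiv (P.map fun ω => (U ω, V ω)) ((P.map U).prod (P.map V))

theorem result {Ω : Type*} [MeasurableSpace Ω] (P : Measure Ω) [IsProbabilityMeasure P]
    (n : ℕ) (ε : ℝ) (hε0 : 0 ≤ ε) (hε1 : ε ≤ 1 / 2) (X Z : Fin n → Ω → ℤˣ)
    (hX : ∀ i, Measurable (X i)) (hZ : ∀ i, Measurable (Z i))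
    (hind : iIndepFun (β := fun _ => ℤˣ) (Sum.elim X Z) P)
    (hX1 : ∀ i, P.real {ω | X i ω = 1} = 1 / 2) (hZ1 : ∀ i, P.real {ω | Z i ω = -1} = ε) :
    (∀ f : (Fin n → ℤˣ) → ℤˣ,
      mutualInformation P (fun ω => f fun i => X i ω) (fun ω => fun i => X i ω * Z i ω) ≤
        ENNReal.ofReal (Real.log 2 - Real.binEntropy ε)) ∧
    ∀ j : Fin n, mutualInformation P (X j) (fun ω => fun i => X i ω * Z i ω) =
        ENNReal.ofReal (Real.log 2 - Real.binEntropy ε) := by
  have hck := CourtadeKumar.result
  have hl : 0 < Real.log 2 := Real.log_pos one_lt_two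
  refine ⟨fun f => ?_, fun j => ?_⟩
  · unfold mutualInformation
    rw [P322Ch.mi_eq P hX hZ hind hX1 hZ1 f, ← P322Ch.h2_eq]
    exact ENNReal.ofReal_le_ofReal (mul_le_mul_of_nonneg_left (hck.1 n f ε hε0 hε1) hl.le)
  · unfold mutualInformation
    have h := P322Ch.mi_eq P hX hZ hind hX1 hZ1 (fun x => x j)
    rw [hck.2 n j ε hε0 hε1, P322Ch.h2_eq] at h
    exact h

end Vale.Agent.Results.P322.BinaryChannel
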