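import Vale.Agent.Lib.P322.Mid
import Vale.Agent.Lib.P322.LRange
import Vale.Agent.Lib.P322.CKFinal

/-!
# P322: the Courtade-Kumar conjecture

For every `n`, every Boolean function `f` on `{-1,1}^n` and every crossover probability
`ε ∈ [0, 1/2]`, `I(f(X); Y) ≤ 1 - h₂(ε)`, with equality for the coordinate functions.
-/

namespace Vale.Agent.Results.P322.CourtadeKumar

/-- Probability mass function of the pair `(X, Z)`: `X` is uniform on `{-1,1}^n`, and the
coordinates of `Z` are independent of `X` and of each other with `P(Z i = -1) = ε`. -/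
noncomputable def pXZ (n : ℕ) (ε : ℝ) (ω : (Fin n → ℤˣ) × (Fin n → ℤˣ)) : ℝ :=
  (1 / 2 : ℝ) ^ n * ∏ i, (if ω.2 i = -1 then ε else 1 - ε)

open Classical in
/-- Probability of the event `S` on a finite space with probability mass function `p`. -/
noncomputable def prob {Ω : Type} [Fintype Ω] (p : Ω → ℝ) (S : Set Ω) : ℝ :=
  ∑ ω, if ω ∈ S then p ω else 0

/-- Mutual information, in bits, of two random variables `A`, `B` on a finite probability
space. -/
noncomputable def mutualInfo {Ω α β : Type} [Fintype Ω] [Fintype α] [Fintype β]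
    (p : Ω → ℝ) (A : Ω → α) (B : Ω → β) : ℝ :=
  ∑ a, ∑ b, prob p {ω | A ω = a ∧ B ω = b} *
    Real.logb 2 (prob p {ω | A ω = a ∧ B ω = b} / (prob p {ω | A ω = a} * prob p {ω | B ω = b}))

/-- Binary entropy in bits. -/
noncomputable def h2 (p : ℝ) : ℝ := -p * Real.logb 2 p - (1 - p) * Real.logb 2 (1 - p)

/-- **The Courtade-Kumar conjecture holds** (here `Y = X Z` coordinatewise), and the bound is
attained by every coordinate function. -/
theorem result :
    (∀ (n : ℕ) (f : (Fin n → ℤˣ) → ℤˣ) (ε : ℝ), 0 ≤ ε → ε ≤ 1 / 2 →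
      mutualInfo (pXZ n ε) (fun ω => f ω.1) (fun ω => ω.1 * ω.2) ≤ 1 - h2 ε) ∧
    (∀ (n : ℕ) (i : Fin n) (ε : ℝ), 0 ≤ ε → ε ≤ 1 / 2 →
      mutualInfo (pXZ n ε) (fun ω => ω.1 i) (fun ω => ω.1 * ω.2) = 1 - h2 ε) := by
  refine ⟨fun n f ε h0 h1 => ?_, fun n i ε h0 h1 => ?_⟩
  · exact _root_.P322.ck_assemble (3 / 5)
      (fun ρ h0 h1 m e he hem hm hme =>
        (_root_.P322.VGE_L h0 (by linarith) he hem hm hme).mono le_rfl
          (_root_.P322.L_range h0 h1 he hem hm hme))
      (fun ρ _ h1 h2 => _root_.P322.closed_mid h1 h2) n f ε h0 h1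
  · exact _root_.P322.mi_dict h0 (by linarith) i

end Vale.Agent.Results.P322.CourtadeKumar
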