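import Vale.Agent.Lib.P322D.Ent

/-!
# P322: the Courtade-Kumar conjecture, with Shannon entropies in bits

`X` is uniform on `{-1,1}^n`, the signs `Z_1, ..., Z_n` are independent of `X` and of each other
with `P(Z_i = -1) = ε`, and `Y = (X_1 Z_1, ..., X_n Z_n)`.  The type of units of the integers
stands for `{-1,1}`.
-/

namespace Vale.Agent.Results.P322.EntropyBits

open MeasureTheory ProbabilityTheory

/-- The Shannon entropy `H(A) = -∑ₐ P(A = a) log₂ P(A = a)`, in bits, of a random variable `A`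
with values in a finite set (`0 log₂ 0 = 0`). -/
noncomputable def entropy {Ω α : Type*} [MeasurableSpace Ω] [Fintype α] (P : Measure Ω)
    (A : Ω → α) : ℝ :=
  -∑ a, P.real {ω | A ω = a} * Real.logb 2 (P.real {ω | A ω = a})

/-- The mutual information `I(A;B) = H(A) + H(B) - H(A,B)`, in bits. -/
noncomputable def mutualInformation {Ω α β : Type*} [MeasurableSpace Ω] [Fintype α] [Fintype β]
    (P : Measure Ω) (A : Ω → α) (B : Ω → β) : ℝ :=
  entropy P A + entropy P B - entropy P (fun ω => (A ω, B ω))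

/-- The binary entropy function `h₂(p) = -p log₂ p - (1-p) log₂ (1-p)`. -/
noncomputable def h₂ (p : ℝ) : ℝ := -p * Real.logb 2 p - (1 - p) * Real.logb 2 (1 - p)

/-- **The Courtade-Kumar conjecture is true**: `I(f(X);Y) ≤ 1 - h₂(ε)` for every `n`, every
Boolean function `f` on `{-1,1}^n` and every `ε ∈ [0,1/2]`.  Every coordinate attains the bound. -/
theorem result {Ω : Type*} [MeasurableSpace Ω] (P : Measure Ω) [IsProbabilityMeasure P]
    (n : ℕ) (ε : ℝ) (hε0 : 0 ≤ ε) (hε1 : ε ≤ 1 / 2) (X Z Y : Ω → Fin n → ℤˣ)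
    (hX : Measurable X) (hZ : Measurable Z)
    (hXuniform : ∀ x, P.real {ω | X ω = x} = 1 / 2 ^ n)
    (hXZ : IndepFun X Z P) (hZind : iIndepFun (fun i ω => Z ω i) P)
    (hZε : ∀ i, P.real {ω | Z ω i = -1} = ε)
    (hY : ∀ ω i, Y ω i = X ω i * Z ω i) :
    (∀ f : (Fin n → ℤˣ) → ℤˣ, mutualInformation P (fun ω => f (X ω)) Y ≤ 1 - h₂ ε) ∧
    ∀ j : Fin n, mutualInformation P (fun ω => X ω j) Y = 1 - h₂ ε := by
  have hck := CourtadeKumar.result
  have hY2 : Y = fun ω => X ω * Z ω := by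
    funext ω i
    exact hY ω i
  subst hY2
  refine ⟨fun f => ?_, fun j => ?_⟩
  · exact (P322Ent.key P hε0 (by linarith) hX hZ hXuniform hXZ hZind hZε (fun w => f w.1)
      (fun w => w.1 * w.2)).trans_le (hck.1 n f ε hε0 hε1)
  · exact (P322Ent.key P hε0 (by linarith) hX hZ hXuniform hXZ hZind hZε (fun w => w.1 j)
      (fun w => w.1 * w.2)).trans (hck.2 n j ε hε0 hε1)

end Vale.Agent.Results.P322.EntropyBits
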