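import Vale.Agent.Lib.P322.LRange
import Vale.Agent.Lib.P322.SmallC
import Vale.Agent.Lib.P322.CKAt

/-!
P322 (Courtade-Kumar conjecture): the inequality for every Boolean function when the crossover
probability lies in `[0, 1/100]` or in `[1/5, 1/2]`.
-/

namespace Vale.Agent.Results.P322.Ranges

open _root_.P322

theorem result (n : ℕ) (f : (Fin n → ℤˣ) → ℤˣ) (ε : ℝ)
    (hε : (0 ≤ ε ∧ ε ≤ 1 / 100) ∨ (1 / 5 ≤ ε ∧ ε ≤ 1 / 2)) :
    mutualInfo (pXZ n ε) (fun ω => f ω.1) (fun ω => ω.1 * ω.2) ≤ 1 - h2 ε := by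
  rcases hε with h | h
  · exact ck_of_goodPot_at n f ε h.1 (by linarith)
      (fun h0 _ => goodPot_small' (by linarith) (by linarith))
  · exact ck_of_goodPot_at n f ε (by linarith) h.2
      (fun _ h1 => ⟨_, goodPot_L (by linarith) (by linarith)⟩)

end Vale.Agent.Results.P322.Ranges
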